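import Vale.Agent.P180.H396.CritK

namespace Vale.Agent.Results.P180.CriticalReduction

open Vale.Agent.P180 IsLocalRing

universe u

/-- Reduction of Donovan's conjecture for arbitrary finite groups to components outside the special
linear groups of all dimensions and, for linear primes, the symplectic, unitary and (odd
characteristic) orthogonal groups of all dimensions. Fix `p` and bounds `n`, `m`. There is a finite
list `H 1, …, H r` of finite groups, depending only on `p`, `n`, `m`, such that (`Red`):

(1) for every algebraically closed field `k` of characteristic `p` there are blocks `c i` of
`k[H i]` with the following property: every block `b` of every finite group `G` with a defect group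
`D` of order at most `n` is `k`-linearly Morita equivalent to one of the `c i`, or to a block `b'`
of a finite group `G'` that is reduced (see `IsReduced`) and has a defect group `D'` of order at
most `|D|` and a component `L` with `D' ∩ L` not central in `L`, such that, with `A = D' ∩ L`,
`R = N_D'(L)` and `T = L / Z(L)`:

(a) the quotient of `G'` by a solvable normal subgroup `S` is a section of `G`, with `D' S / S`
covered by `D` (see `SecMod`), `T` is a section of the normal closure of `D` in `G`, and the
group of automorphisms of `L` induced by `R` is isomorphic to a section of `D` (so it is abelian if
`D` is abelian);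

(b) for all finite fields `K` of order prime to `p` and all `d`, if (`Ext`) `R` acts trivially on `A`
modulo `Z(L)` (for example: `D` is abelian), or `A` is elementary abelian modulo `Z(L)`; or both `R`
acts on `L` by inner automorphisms or `p` does not divide `2 |Aut(K)|` or `A` has exponent `1` or `p`
modulo `Z(L)`, and `A` is abelian or its image in `T` has order less than `p ^ p`:

* (`Cls` (1)) `T` is not `PSL_d(K)`, `3 ≤ d`, if `p` does not divide both `d` and `|K| - 1`, and `4`
divides `|K| - 1` if `p = 2`;

* (`Cls` (2)) `T` is not `PSp_d(K)`, `|K| > 9`, nor `PSU_d(K)`, `|K| > 324`, if `p` is a linear prime;

* (`Cls` (4)) `L` is not a symplectic, unitary or orthogonal group of dimension `d ≥ 3` over `K`, or a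
central quotient of such a group, on which `R` acts by semilinear similitudes (`SimData`; `|K|` odd
if the group is orthogonal), if `p` is a linear prime and `N(L) / L C(L)` is solvable or of order at
most `m`;

(c) for all finite fields `K` of order prime to `p` and all `d ≥ 3`: `L` is not a quotient of
`SL_d(K)` by a central subgroup such that (`Out`) the `p`-part of `gcd(d, |K| - 1)` is at most `m` and
(1) `p` does not divide `2 |Aut(K)|`, or `R` acts on `L` through elements of `GL_d(K)` (for example:
by inner automorphisms), and the preimage of `A` in `SL_d(K)` is commutative, or `p ≥ 5` and it has
nilpotency class at most `p - 2` (or satisfies `Eng`), or (`Large`, for arbitrary `A`)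
`n m < p q ^ (p - 1)`, `q` the `p`-part of `|K| - 1`; or (2) `p ≠ 2` and `R` acts on `L` by
automorphisms which lift to automorphisms of `SL_d(K)` fixing the elements of `p`-power order in the
preimage of `A Z(L)` (for example: `D'` is abelian and `p` does not divide the order of the kernel of
the map from `SL_d(K)` to `L`), and the preimage of `A` is as in (1), first case;

(d) `T` has order greater than `m` and than `9 ^ 16`, and `L` is exceptional as in `ExcX`: see there
and `Covered`, `TameAct`, `CycLev`;

(2) for every complete discrete valuation ring `O` with algebraically closed residue field `k` of
characteristic `p` there are blocks `C i` of `O[H i]` such that the same holds for the blocks of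
`OG` and `O`-linear Morita equivalence. -/
theorem result (p : ℕ) [Fact p.Prime] (n m : ℕ) :
    ∃ (r : ℕ) (H : Fin r → Type) (_ : ∀ i, Group (H i)) (_ : ∀ i, Finite (H i)),
      (∀ (k : Type u) [Field k] [IsAlgClosed k] [CharP k p],
        CritG.Red p n m H k (RingHom.id k)) ∧
      (∀ (O : Type u) [CommRing O] [IsDomain O] [IsDiscreteValuationRing O]
        [IsAdicComplete (maximalIdeal O) O] [IsAlgClosed (ResidueField O)]
        [CharP (ResidueField O) p], CritG.Red p n m H O (residue O)) :=
  Vale.Agent.P180.H396.critG2 p n m

end Vale.Agent.Results.P180.CriticalReduction
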