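import Vale.Agent.P180.H392.GlI

namespace Vale.Agent.Results.P180.LinearSeries

open Vale.Agent.P180 Vale.Agent.P180.H392 IsLocalRing

universe u

/-- Fix `p` and bounds `n`, `m`. There is a finite list `H 1, …, H r` of finite groups, depending
only on `p`, `n`, `m`, such that:

(1) for every algebraically closed field `k` of characteristic `p` there are blocks `c i` of
`k[H i]` with the following property (`MorG`, for the identity of `k`). Let `G` be a finite group and `b` a block of `kG` with a
defect group `D` of order at most `n`, and suppose that `G` has normal subgroups
`N 0 ≤ N 1 ≤ ⋯ ≤ N l` (any number) with `D ≤ N l` such that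

(a) `N 0` is a central product of quasisimple groups `L` (any number, possibly none), and for each
of them: `L / Z(L)` is covered, where `c` says that `N_D(L)` acts trivially on `D ∩ L` modulo `Z(L)`
or that `D ∩ L` is elementary abelian modulo `Z(L)`, `e` that `D ∩ L` has exponent `1` or `p` modulo
`Z(L)`, and `s` that the image of `D ∩ L` in `L / Z(L)` has order less than `p ^ p`; or the action
of `N_D(L)` on `L` is tame for `A = D ∩ L`, and `N_G(L) / L C_G(L)` is solvable or of order at most
`m` (**); or (`LinG`) `L` is a quotient of `SL_d(K)` by scalars, `K` any finite field and `3 ≤ d` arbitrary,
`p` does not divide `|K|`, and either `p` does not divide both `d` and `|K| - 1`, `4` divides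
`|K| - 1` if `p = 2`, and (`ExtG`): `c` holds (for example: `D` is abelian), or both `N_D(L)` acts on
`L` by inner automorphisms or `p` does not divide `2 |Aut(K)|` or `e` holds, and `D ∩ L` is abelian
or `s` holds; or (`OutG`): the `p`-part of the greatest common divisor of
`d` and `|K| - 1` is at most `m`, and either `N_D(L)` acts on `L` through `GL_d(K)` or `p` does not
divide `2 |Aut(K)|`, and (***): the preimage of `D ∩ L` in `SL_d(K)` is commutative or, if `p` is odd,
of nilpotency class at most `p - 2`, or (`Large`) a power `p ^ a` of `p` with
`n m < p ^ (1 + a (p - 1))` divides `|K| - 1` (then `D` is arbitrary); or `p` is odd, the action lifts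
to automorphisms of `SL_d(K)` fixing the elements of `p`-power order in the preimage of
`(D ∩ L) Z(L)`, and the first part of (***) (for example: `L` is normal in `G`, `D` is abelian,
`n ≤ m`, `p` is odd and does not divide the order of the kernel of `SL_d(K) → L`);
or (`IsoG`) `L` is a symplectic, unitary or orthogonal group of any dimension `d ≥ 3` over any
finite field `K` (a quotient by scalars of a subgroup of index at most two in the special isometry
group of an alternating, symmetric or hermitian form, of the whole group, alternating or hermitian
if `|K|` is even), `N_D(L)` acts on `L` by semilinear similitudes, `p` is a linear prime not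
dividing `|K|`, `ExtG` holds, and (**); or `D ∩ L ≤ Z(L)`;

(b) for `i < l`, each nonabelian simple section `T` of `N (i + 1) / N i` of order divisible by `p`
is tame for the image `P` of `D` in `G / N i`: `T` is covered, where `c` says that `P` is abelian or
that all subgroups of `T` which are sections of `P` are elementary abelian, `e` that all these
subgroups have exponent `1` or `p`, and `s` that they have order less than `p ^ p`; or (`SecG`) `T`
is `PSL_d(K)`, `K` any finite field and `3 ≤ d` arbitrary, `p` does not divide `|K|`, nor both `d`
and `|K| - 1`, `4` divides `|K| - 1` if `p = 2`, or `T` is `PSp_d(K)`, `|K| > 9`, or `PSU_d(K)`,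
`|K| > 324`, `3 ≤ d` arbitrary, `p` is a linear prime not dividing `|K|`, and: `c` holds, or both `p`
does not divide `2 |Aut(K)|` or `e` holds, and the subgroups of `T` which are sections of `P` are
abelian or `s` holds; or `T` is `PSL_d(K)`, `p` does not divide `2 |K| |Aut(K)|`, the `p`-part of the
greatest common divisor of `d` and `|K| - 1` is at most `m`, and `|K|` is as in `Large`, or the
subgroups of `T` which are sections of `P` have nilpotency class at most `p - 3` (for example: `P` is
abelian and `5 ≤ p`), or at most `p - 2` if `p` does not divide both `d` and `|K| - 1`; or `Out(T)` is
solvable or of order at most `m`, and the `p`-subgroups of `T`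
are cyclic and `p` does not divide `|Out(T)|`, or, for all perfect groups `L` with `L / Z(L) ≅ T`,
all groups `Γ` of automorphisms of `L` which are sections of `P`, and all noncentral `p`-subgroups
`A` of `L` of order at most `n` whose elements induce elements of `Γ`, the action of `Γ` on `L` is
tame for `A` or as in `LinG` or `IsoG`.

Here `T` is covered (`Covered`) if `|T| ≤ m`; `T` is an alternating group; `T` is a symplectic,
unitary or orthogonal group in characteristic `p` (`ClassIn`), or of local characteristic `p` up to
order `n` (and `p = 2` or `|T|_p > n`); or, `K` a finite field, `T` is `PSL_d(K)`, and `d = 2` (any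
`K`, any `p`), or `K` has characteristic `p` (any `d`), or `d` is as in `TameDim` and `LinDeg`; or
`p` is a linear prime not dividing `|K|`, `T` is `PSp_d(K)`, `PSU_d(K)`, or an orthogonal group of
dimension `d` over `K`, `7 ≤ d`, and `d < p` or `d ≤ m` (`d ≠ 8` if `p = 3`), and `d` is as in
`TameDim`. With `θ` the field automorphism of the form (`θ = 1` except for `PSU_d(K)`) and `K'` its
fixed field, `TameDim` says: `d < p`, and [`p` divides `|K'| - 1` or does not divide the degree of
`K` over its prime field or `c` or `e` holds]; or [`c` holds, or `s` holds and (`p` does not divide
this degree or `e` holds)], and [`d ≤ m`, or (`|K| > 9`, for `PSU_d(K)` `|K| > 324`) `p` divides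
`|K'| - 1`].

The action of `Γ` on `L` is tame for `A` (`TameAct`) if `Γ` is cyclic and `p` does not divide
`|Z(L)|`; or the pair `(L, A)` is tame and `Γ` consists of inner automorphisms or `L` is a quotient
of `SL_d(K)` by scalars, `d` as in `LinDeg`, and (*) `Γ` acts trivially on `A` modulo `Z(L)` or `A`
is elementary abelian modulo `Z(L)` (`CenOn`); or `L` is the quotient by scalars of a symplectic,
unitary or orthogonal group in dimension `d ≥ 3` on which `Γ` acts by semilinear similitudes
(`SimOn`), and `d < p` and `p` divides `|K'| - 1`, or the pair `(L, A)` is tame, `p` is a linear
prime, and (*); or `L` has a split parabolic system compatible with `Γ` (`ParOut`); or `L` is a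
perfect central extension of an orthogonal group of dimension `d`, `4 ≤ d < p`, over a field `K`,
`|K| > 9`, `6 ≤ d` if `|K|` is even, on which `Γ` acts by semilinear similitudes, `p` is a linear
prime, and `p` divides `|K| - 1` or (*) (`CoverSim`).

A pair `(L, A)` is tame (`TameP`) if `A` is cyclic, or `L` has a split parabolic system for `A`
(`ParPair`), or a small parabolic system and Levi subgroups on whose factors the `p`-subgroups over
`A` act through cyclic groups (`LevPair`), or `L` is a perfect central extension of an orthogonal
group of dimension `d < p` over a field `K`, `|K| > 9`, `6 ≤ d` if `|K|` is even, `p` a linear prime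
(`CoverPair`), or `L` is a classical group of dimension `d` over a finite field `K` of
characteristic different from `p` for which `p` is a linear prime: a quotient by scalars of
`SL_d(K)` or of a subgroup of index at most two in the special isometry group of an alternating,
symmetric or hermitian form (of the whole group, alternating or hermitian if `|K|` is even), and `d
< p`, or the `p`-elements over `A` commute and `d ≤ m`, or they commute and `p` divides `|K'| - 1`
and (for `SL_d(K)`) `p` does not divide `d` or these elements have order dividing `|K| - 1`.

Then `kGb` is `k`-linearly Morita equivalent to one of the `r` block algebras `k[H i](c i)`.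

(2) for every complete discrete valuation ring `O` with algebraically closed residue field of
characteristic `p` there are blocks `C i` of `O[H i]` such that the same holds for the blocks of
`OG` and `O`-linear Morita equivalence (`MorG`, for the map of `O` onto its residue field). -/
theorem result (p : ℕ) [Fact p.Prime] (n m : ℕ) :
    ∃ (r : ℕ) (H : Fin r → Type) (_ : ∀ i, Group (H i)) (_ : ∀ i, Finite (H i)),
      (∀ (k : Type u) [Field k] [IsAlgClosed k] [CharP k p], MorG p n m H k (RingHom.id k)) ∧
      (∀ (O : Type u) [CommRing O] [IsDomain O] [IsDiscreteValuationRing O]
        [IsAdicComplete (maximalIdeal O) O] [IsAlgClosed (ResidueField O)]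
        [CharP (ResidueField O) p], MorG p n m H O (residue O)) :=
  finalG2 glStmtB isoStmt outStmtN glStmt thruStmt secStmt p n m

end Vale.Agent.Results.P180.LinearSeries
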